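import Vale.Agent.P073Z.Cone.Lip

/-!
# Energy calculus: change of variables, covers, comparison with the derivative
-/

open Set Metric Topology Filter MeasureTheory
open scoped ENNReal NNReal

namespace P073

namespace EN

section general

variable {S S' T : Type} [MetricSpace S] [MetricSpace S'] [PseudoEMetricSpace T]

/-- chain rule for the pointwise Lipschitz constant -/
theorem lipAt_comp_le {X : Set S} {Y : Set S'} {φ : S → S'} {h : S' → T} {K : ℝ≥0} {x : S}
    (hm : MapsTo φ X Y) (hK : LipschitzOnWith K φ X) (hx : x ∈ X) :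
    lipAt (h ∘ φ) X x ≤ K * lipAt h Y (φ x) := by
  by_cases h0 : (K : ℝ≥0∞) = 0
  · refine Cone.lipAt_le (eventually_nhdsWithin_of_forall fun y hy => ?_)
    have h1 := hK hy hx
    rw [h0, zero_mul, nonpos_iff_eq_zero, edist_eq_zero] at h1
    simp [h1]
  · have := Cone.le_of_forall_gt_aff (a := lipAt (h ∘ φ) X x) (l := lipAt h Y (φ x)) (e := 0)
      h0 ENNReal.coe_ne_top fun c hc => by
        rw [add_zero]
        refine Cone.lipAt_le ?_
        have ht : Tendsto φ (𝓝[X] x) (𝓝[Y] (φ x)) :=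
          (hK.continuousOn x hx).tendsto_nhdsWithin hm
        filter_upwards [ht.eventually (Cone.ev_of_lipAt_lt hc), self_mem_nhdsWithin] with y h1 hy
        refine h1.trans ?_
        rw [mul_comm (K : ℝ≥0∞) c, mul_assoc]
        exact mul_le_mul_right (hK hy hx) c
    rwa [add_zero] at this

variable [MeasurableSpace S] [BorelSpace S] [MeasurableSpace S'] [BorelSpace S']

/-- change of variables under a Lipschitz parametrisation, for an arbitrary integrand -/
theorem lintegral_le_of_lip {X : Set S} {Y : Set S'} {ψ : S' → S} {L : ℝ≥0} {d : ℝ} (hd : 0 ≤ d)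
    (hY : MeasurableSet Y) (hL : LipschitzOnWith L ψ Y) (hX : X ⊆ ψ '' Y) (f : S → ℝ≥0∞) :
    ∫⁻ x in X, f x ∂(μH[d]) ≤ (L : ℝ≥0∞) ^ d * ∫⁻ y in Y, f (ψ y) ∂(μH[d]) := by
  have hm : AEMeasurable ψ ((μH[d] : Measure S').restrict Y) := hL.continuousOn.aemeasurable hY
  have h1 : (μH[d] : Measure S).restrict X ≤
      ((L : ℝ≥0∞) ^ d) • Measure.map ψ ((μH[d] : Measure S').restrict Y) := by
    refine Measure.le_iff.2 fun A hA => ?_
    rw [Measure.restrict_apply hA, Measure.smul_apply, Measure.map_apply_of_aemeasurable hm hA,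
      Measure.restrict_apply' hY, smul_eq_mul]
    refine le_trans (measure_mono ?_)
      ((hL.mono (inter_subset_right (s := ψ ⁻¹' A))).hausdorffMeasure_image_le hd)
    rintro x ⟨hxA, hxX⟩
    obtain ⟨y, hy, rfl⟩ := hX hxX
    exact ⟨y, ⟨hxA, hy⟩, rfl⟩
  refine (lintegral_mono' h1 le_rfl).trans ?_
  rw [lintegral_smul_measure, smul_eq_mul]
  exact mul_le_mul_right (lintegral_map_le _ _) _

/-- change of variables for the energy -/
theorem en_comp_le {k : ℕ} {p : ℝ} (hp : 0 < p) {X : Set S} {Y : Set S'} {φ : S → S'}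
    {ψ : S' → S} {h : S' → T} {K L : ℝ≥0} (hY : MeasurableSet Y) (hφ : MapsTo φ X Y)
    (hψ : MapsTo ψ Y X) (hl : LeftInvOn ψ φ X) (hr : RightInvOn ψ φ Y)
    (hK : LipschitzOnWith K φ X) (hL : LipschitzOnWith L ψ Y) :
    En k p (h ∘ φ) X ≤ (K : ℝ≥0∞) ^ p * (L : ℝ≥0∞) ^ k * En k p h Y := by
  unfold En
  refine (lintegral_le_of_lip (Nat.cast_nonneg k) hY hL
    (fun x hx => ⟨φ x, hφ hx, hl hx⟩) _).trans ?_
  rw [ENNReal.rpow_natCast, mul_comm ((K : ℝ≥0∞) ^ p), mul_assoc]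
  refine mul_le_mul_right ?_ _
  rw [← lintegral_const_mul' _ _ (ENNReal.rpow_ne_top_of_nonneg hp.le ENNReal.coe_ne_top)]
  refine setLIntegral_mono' hY fun y hy => ?_
  rw [← ENNReal.mul_rpow_of_nonneg _ _ hp.le]
  refine ENNReal.rpow_le_rpow ?_ hp.le
  have := lipAt_comp_le (h := h) hφ hK (hψ hy)
  rwa [hr hy] at this

theorem en_le_of_lip {k : ℕ} {p : ℝ} (hp : 0 < p) {X : Set S} {h : S → T} {K : ℝ≥0}
    (hX : MeasurableSet X) (hK : LipschitzOnWith K h X) :
    En k p h X ≤ (K : ℝ≥0∞) ^ p * μH[(k : ℝ)] X := by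
  unfold En
  rw [← setLIntegral_const]
  exact setLIntegral_mono' hX fun x hx => ENNReal.rpow_le_rpow (Cone.lipAt_le_of_lip hK hx) hp.le

theorem en_congr {k : ℕ} {p : ℝ} {X : Set S} {h h' : S → T} (hX : MeasurableSet X)
    (he : EqOn h h' X) : En k p h X = En k p h' X := by
  unfold En
  refine setLIntegral_congr_fun hX fun x hx => ?_
  show lipAt h X x ^ p = lipAt h' X x ^ p
  rw [le_antisymm (Cone.lipAt_le_of_mem self_mem_nhdsWithin hx he)
    (Cone.lipAt_le_of_mem self_mem_nhdsWithin hx he.symm)]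

/-- the energy is subadditive along covers by relative neighbourhoods -/
theorem en_le_tsum {k : ℕ} {p : ℝ} (hp : 0 < p) {ι : Type} [Countable ι] {X : Set S}
    {Y : ι → Set S} {h : S → T} {g : ι → S → T} (hX : MeasurableSet X)
    (he : ∀ j, EqOn h (g j) (Y j))
    (H : ∀ᵐ x ∂(μH[(k : ℝ)] : Measure S), x ∈ X → ∃ j, Y j ∈ 𝓝[X] x) :
    En k p h X ≤ ∑' j, En k p (g j) (Y j) := by
  unfold En
  have ho : ∀ j, IsOpen {x | Y j ∈ 𝓝[X] x} := fun j =>
    isOpen_iff_mem_nhds.2 fun x hx => eventually_nhds_nhdsWithin.2 hx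
  have h1 : X ≤ᵐ[(μH[(k : ℝ)] : Measure S)] (⋃ j, X ∩ {x | Y j ∈ 𝓝[X] x} : Set S) := by
    filter_upwards [H] with x hx hxX
    obtain ⟨j, hj⟩ := hx hxX
    exact mem_iUnion.2 ⟨j, hxX, hj⟩
  refine (lintegral_mono_set' h1).trans ((lintegral_iUnion_le _ _).trans ?_)
  refine ENNReal.tsum_le_tsum fun j => ?_
  refine le_trans (setLIntegral_mono' (hX.inter (ho j).measurableSet) fun x hx => ?_)
    (lintegral_mono_set fun x hx => mem_of_mem_nhdsWithin hx.1 hx.2)
  exact ENNReal.rpow_le_rpow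
    (Cone.lipAt_le_of_mem hx.2 (mem_of_mem_nhdsWithin hx.1 hx.2) (he j)) hp.le

/-- finite form of the cover inequality -/
theorem en_le_sum {k : ℕ} {p : ℝ} (hp : 0 < p) {ι : Type} (s : Finset ι) {X : Set S}
    {Y : ι → Set S} {h : S → T} {g : ι → S → T} (hX : MeasurableSet X)
    (he : ∀ j ∈ s, EqOn h (g j) (Y j))
    (H : ∀ᵐ x ∂(μH[(k : ℝ)] : Measure S), x ∈ X → ∃ j ∈ s, Y j ∈ 𝓝[X] x) :
    En k p h X ≤ ∑ j ∈ s, En k p (g j) (Y j) := by
  have := en_le_tsum hp (ι := s) (Y := fun j => Y j) (g := fun j => g j) hX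
    (fun j => he j j.2) (H.mono fun x hx hxX => by
      obtain ⟨j, hj, h1⟩ := hx hxX
      exact ⟨⟨j, hj⟩, h1⟩)
  rwa [Finset.tsum_subtype s fun j => En k p (g j) (Y j)] at this

/-- the energy is monotone in the set -/
theorem en_mono {k : ℕ} {p : ℝ} (hp : 0 < p) {X Y : Set S} {h : S → T} (hX : MeasurableSet X)
    (hXY : X ⊆ Y) : En k p h X ≤ En k p h Y := by
  unfold En
  refine le_trans (setLIntegral_mono' hX fun x hx => ?_) (lintegral_mono_set hXY)
  exact ENNReal.rpow_le_rpow (Cone.lipAt_le_of_mem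
    (mem_of_superset self_mem_nhdsWithin hXY) (hXY hx) fun _ _ => rfl) hp.le

end general

theorem enorm_fderiv_le {E F : Type} [NormedAddCommGroup E] [NormedSpace ℝ E]
    [NormedAddCommGroup F] [NormedSpace ℝ F] {X : Set E} {h : E → F} {x : E} (hx : X ∈ 𝓝 x) :
    ‖fderiv ℝ h x‖ₑ ≤ lipAt h X x := by
  refine le_of_forall_gt_imp_ge_of_dense fun c hc => ?_
  by_cases hc' : c = ⊤
  · rw [hc']; exact le_top
  lift c to ℝ≥0 using hc'
  have h1 := Cone.ev_of_lipAt_lt hc
  rw [nhdsWithin_eq_nhds.2 hx] at h1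
  have h2 : ‖fderiv ℝ h x‖ ≤ c := norm_fderiv_le_of_lip' ℝ c.2 (h1.mono fun y hy => by
    rw [edist_nndist, edist_nndist, ← ENNReal.coe_mul, ENNReal.coe_le_coe, ← NNReal.coe_le_coe,
      NNReal.coe_mul, coe_nndist, coe_nndist, dist_eq_norm, dist_eq_norm] at hy
    exact hy)
  exact enorm_le_coe.2 h2

end EN

theorem enb : ENB := by
  intro S S' T _ _ _ _ _ _ _ k p hp
  refine ⟨fun {X Y φ ψ h K L} hX hφ hψ hl hr hK hL => ?_, fun hX hK => EN.en_le_of_lip hp hX hK,
    fun hX he => EN.en_congr hX he⟩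
  have hY : Y = φ '' X := Subset.antisymm (fun y hy => ⟨ψ y, hψ hy, hr hy⟩) hφ.image_subset
  have : MeasurableSet Y := hY ▸ (hX.image_of_continuousOn hK.continuousOn).measurableSet
  exact EN.en_comp_le hp this hφ hψ hl hr hK hL

theorem end_thm : END := by
  intro n F _ _ X h p hp
  have h1 : ∀ x ∈ interior X, ‖fderiv ℝ h x‖ₑ ≤ lipAt h X x := fun x hx =>
    EN.enorm_fderiv_le (mem_interior_iff_mem_nhds.1 hx)
  refine ⟨h1, ?_⟩
  unfold En
  have h2 : (μH[(n : ℝ)] : Measure (Fin n → ℝ)) = volume := by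
    have := hausdorffMeasure_pi_real (ι := Fin n)
    rwa [Fintype.card_fin] at this
  rw [h2]
  exact le_trans (setLIntegral_mono' isOpen_interior.measurableSet fun x hx =>
    ENNReal.rpow_le_rpow (h1 x hx) hp.le) (lintegral_mono_set interior_subset)

end P073
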